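import Mathlib

/-!
# Derived `p`-complete abelian groups and finitely generated `ℤ_[p]`-modules (row (D) of P261)
-/

namespace Vale.Agent.P261.H180

universe u

/-- `lim` and `lim¹` of `… → A → A → A` (multiplication by `p`) vanish: `A` is `Ext`-`p`-complete. -/
structure PC (p : ℕ) (A : Type u) [AddCommGroup A] : Prop where
  sep : ∀ a : ℕ → A, (∀ i, a i = p • a (i + 1)) → ∀ i, a i = 0
  sum : ∀ b : ℕ → A, ∃ x : ℕ → A, ∀ i, x i = b i + p • x (i + 1)

variable {p : ℕ} [hp : Fact p.Prime] {A : Type u} [AddCommGroup A]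

/-- digit expansion, one step -/
theorem next (w : ℤ_[p]) : ∃ (c : ℤ) (w' : ℤ_[p]), w = c + p * w' := by
  have h : w - (w.appr 1 : ℤ_[p]) ∈ Ideal.span {(p : ℤ_[p]) ^ 1} := PadicInt.appr_spec 1 w
  rw [pow_one, Ideal.mem_span_singleton] at h
  obtain ⟨w', hw'⟩ := h
  refine ⟨(w.appr 1 : ℤ), w', ?_⟩
  push_cast
  rw [← hw']; ring

theorem int_of_mul {m e : ℤ} {w : ℤ_[p]} (h : (m : ℤ_[p]) = e + p * w) :
    ∃ m' : ℤ, w = m' ∧ m = e + p * m' := by
  have h1 : (p : ℤ) ∣ m - e := by
    have : ‖((m - e : ℤ) : ℤ_[p])‖ < 1 := by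
      push_cast
      rw [h, add_sub_cancel_left, norm_mul, PadicInt.norm_p]
      have hp1 : (1 : ℝ) < p := by exact_mod_cast hp.out.one_lt
      calc (p : ℝ)⁻¹ * ‖w‖ ≤ (p : ℝ)⁻¹ * 1 := by
            gcongr; exact PadicInt.norm_le_one w
        _ < 1 := by rw [mul_one]; exact inv_lt_one_of_one_lt₀ hp1
    exact (PadicInt.norm_int_lt_one_iff_dvd _).1 this
  obtain ⟨m', hm'⟩ := h1
  have hp0 : (p : ℤ_[p]) ≠ 0 := by exact_mod_cast hp.out.ne_zero
  refine ⟨m', ?_, by linarith⟩
  have h2 : (p : ℤ_[p]) * w = p * m' := by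
    have : ((m - e : ℤ) : ℤ_[p]) = ((p * m' : ℤ) : ℤ_[p]) := by rw [hm']
    push_cast at this
    rw [← this, h]; ring
  exact mul_left_cancel₀ hp0 h2

/-- a formal sum whose value in `ℤ_[p]` is zero has value zero in `A` -/
theorem sum_zero (h : PC p A) {a : A} {e : ℕ → ℤ} {w : ℕ → ℤ_[p]} {x : ℕ → A} (h0 : w 0 = 0)
    (hw : ∀ i, w i = e i + p * w (i + 1)) (hx : ∀ i, x i = e i • a + p • x (i + 1)) : x 0 = 0 := by
  have h1 : ∀ i, ∃ m : ℤ, w i = m := by
    intro i
    induction i with
    | zero => exact ⟨0, by simpa using h0⟩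
    | succ i ih =>
      obtain ⟨m, hm⟩ := ih
      obtain ⟨m', h', -⟩ := int_of_mul (hm ▸ hw i : (m : ℤ_[p]) = e i + p * w (i + 1))
      exact ⟨m', h'⟩
  choose m hm using h1
  have h2 : ∀ i, m i = e i + p * m (i + 1) := by
    intro i
    have := hw i
    rw [hm i, hm (i + 1)] at this
    exact_mod_cast this
  have h3 := h.sep (fun i => x i - m i • a) (by
    intro i
    rw [hx i, h2 i, add_smul, mul_smul, smul_sub, natCast_zsmul]
    abel) 0
  have h4 : m 0 = 0 := by
    have := hm 0
    rw [h0] at this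
    exact_mod_cast this.symm
  simpa [h4] using h3

theorem hom_ext (h : PC p A) {f g : ℤ_[p] →+ A} (h1 : f 1 = g 1) : f = g := by
  have hc : ∀ c : ℤ, (f - g) (c : ℤ_[p]) = 0 := by
    intro c
    have := map_zsmul (f - g) c (1 : ℤ_[p])
    rw [zsmul_one] at this
    rw [this]
    simp [h1]
  choose c n hn using (next (p := p))
  have key : ∀ z, (f - g) z = 0 := by
    intro z
    refine h.sep (fun i => (f - g) (n^[i] z)) (fun i => ?_) 0
    simp only [Function.iterate_succ_apply']
    conv_lhs => rw [hn (n^[i] z)]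
    rw [map_add, hc, zero_add, ← nsmul_eq_mul, map_nsmul]
  ext z
  have := key z
  rw [AddMonoidHom.sub_apply] at this
  exact sub_eq_zero.1 this

theorem exists_hom (h : PC p A) (a : A) : ∃ f : ℤ_[p] →+ A, f 1 = a := by
  choose c n hn using (next (p := p))
  have hx : ∀ z : ℤ_[p], ∃ x : ℕ → A, ∀ i, x i = c (n^[i] z) • a + p • x (i + 1) :=
    fun z => h.sum _
  choose x hx using hx
  refine ⟨AddMonoidHom.mk' (fun z => x z 0) ?_, ?_⟩
  · intro z z'
    have := sum_zero h (a := a) (e := fun i => c (n^[i] (z + z')) - c (n^[i] z) - c (n^[i] z'))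
      (w := fun i => n^[i] (z + z') - n^[i] z - n^[i] z')
      (x := fun i => x (z + z') i - x z i - x z' i) (by simp) (by
        intro i
        simp only [Function.iterate_succ_apply']
        push_cast
        linear_combination hn (n^[i] (z + z')) - hn (n^[i] z) - hn (n^[i] z')) (by
        intro i
        rw [hx (z + z') i, hx z i, hx z' i, sub_smul, sub_smul, smul_sub, smul_sub]
        abel)
    rw [sub_sub, sub_eq_zero] at this
    exact this
  · simp only [AddMonoidHom.mk'_apply]
    have := sum_zero h (a := a) (e := fun i => c (n^[i] 1) - if i = 0 then 1 else 0)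
      (w := fun i => n^[i] 1 - if i = 0 then 1 else 0)
      (x := fun i => x 1 i - if i = 0 then a else 0) (by simp) (by
        intro i
        simp only [Function.iterate_succ_apply']
        have := hn (n^[i] 1)
        by_cases hi : i = 0
        · subst hi
          simp at this ⊢
          linear_combination this
        · simp [hi]
          exact this) (by
        intro i
        rw [hx 1 i]
        by_cases hi : i = 0
        · subst hi
          simp [sub_smul]
          abel
        · simp [hi])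
    simpa [sub_eq_zero] using this

/-- the `ℤ_[p]`-module structure of an `Ext`-`p`-complete group -/
@[reducible] noncomputable def mod (h : PC p A) : Module ℤ_[p] A where
  smul z a := (exists_hom h a).choose z
  one_smul a := (exists_hom h a).choose_spec
  mul_smul z z' a := by
    change (exists_hom h a).choose (z * z') = (exists_hom h ((exists_hom h a).choose z')).choose z
    have := hom_ext h (f := (exists_hom h a).choose.comp (AddMonoidHom.mulRight z'))
      (g := (exists_hom h ((exists_hom h a).choose z')).choose) (by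
        rw [(exists_hom h ((exists_hom h a).choose z')).choose_spec]
        simp)
    exact DFunLike.congr_fun this z
  smul_zero z := by
    change (exists_hom h (0 : A)).choose z = 0
    have := hom_ext h (f := (exists_hom h (0 : A)).choose) (g := 0) (by
      rw [(exists_hom h (0 : A)).choose_spec]; rfl)
    rw [this]; rfl
  smul_add z a b := by
    change (exists_hom h (a + b)).choose z = (exists_hom h a).choose z + (exists_hom h b).choose z
    have := hom_ext h (f := (exists_hom h (a + b)).choose)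
      (g := (exists_hom h a).choose + (exists_hom h b).choose) (by
        rw [(exists_hom h (a + b)).choose_spec, AddMonoidHom.add_apply,
          (exists_hom h a).choose_spec, (exists_hom h b).choose_spec])
    rw [this]; rfl
  add_smul z z' a := by
    change (exists_hom h a).choose (z + z') = (exists_hom h a).choose z + (exists_hom h a).choose z'
    exact map_add _ _ _
  zero_smul a := by
    change (exists_hom h a).choose 0 = 0
    exact map_zero _

/-- uniqueness of the module structure -/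
theorem mod_unique (h : PC p A) (M₁ M₂ : Module ℤ_[p] A) : M₁ = M₂ := by
  refine Module.ext' _ _ (fun z a => ?_)
  have := hom_ext h
    (f := { toFun := fun z => M₁.smul z a, map_zero' := M₁.zero_smul a,
            map_add' := fun z z' => M₁.add_smul z z' a })
    (g := { toFun := fun z => M₂.smul z a, map_zero' := M₂.zero_smul a,
            map_add' := fun z z' => M₂.add_smul z z' a })
    ((M₁.one_smul a).trans (M₂.one_smul a).symm)
  exact DFunLike.congr_fun this z

theorem PC.zp : PC p ℤ_[p] where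
  sep a ha i := by
    have h1 : ∀ n i, a i = p ^ n * a (i + n) := by
      intro n
      induction n with
      | zero => simp
      | succ n ih =>
        intro i
        rw [ih i, ha (i + n), nsmul_eq_mul, pow_succ, ← add_assoc]
        ring
    by_contra hne
    have hpos : 0 < ‖a i‖ := norm_pos_iff.2 hne
    have hp1 : (p : ℝ)⁻¹ < 1 := inv_lt_one_of_one_lt₀ (by exact_mod_cast hp.out.one_lt)
    obtain ⟨n, hn⟩ := exists_pow_lt_of_lt_one hpos hp1
    have : ‖a i‖ ≤ (p : ℝ)⁻¹ ^ n := by
      rw [h1 n i, norm_mul, norm_pow, PadicInt.norm_p]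
      exact mul_le_of_le_one_right (by positivity) (PadicInt.norm_le_one _)
    linarith
  sum b := by
    have hp1 : (p : ℝ)⁻¹ < 1 := inv_lt_one_of_one_lt₀ (by exact_mod_cast hp.out.one_lt)
    have hs : ∀ i, Summable fun j => (p : ℤ_[p]) ^ j * b (i + j) := by
      intro i
      refine Summable.of_norm_bounded (g := fun j => (p : ℝ)⁻¹ ^ j)
        (summable_geometric_of_lt_one (by positivity) hp1) (fun j => ?_)
      rw [norm_mul, norm_pow, PadicInt.norm_p]
      exact mul_le_of_le_one_right (by positivity) (PadicInt.norm_le_one _)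
    refine ⟨fun i => ∑' j, (p : ℤ_[p]) ^ j * b (i + j), fun i => ?_⟩
    simp only
    have h2 : (p : ℤ_[p]) * ∑' j, (p : ℤ_[p]) ^ j * b (i + 1 + j)
        = ∑' j, (p : ℤ_[p]) * ((p : ℤ_[p]) ^ j * b (i + 1 + j)) :=
      ((hs (i + 1)).tsum_mul_left _).symm
    rw [(hs i).tsum_eq_zero_add, nsmul_eq_mul, h2]
    simp only [pow_zero, one_mul, add_zero]
    congr 1
    refine tsum_congr (fun j => ?_)
    rw [pow_succ', mul_assoc, add_assoc, add_comm 1 j]

/-- **Row (D).** An `Ext`-`p`-complete group with `A / p` finite is a finitely generated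
`ℤ_[p]`-module. -/
theorem finite_of_PC (h : PC p A) (s : Finset A) (hs : ∀ a : A, ∃ b ∈ s, ∃ a', a = b + p • a') :
    letI := mod h; Module.Finite ℤ_[p] A := by
  classical
  let _ := mod h
  refine ⟨⟨s, ?_⟩⟩
  rw [eq_top_iff]
  intro a _
  choose σ hσ n hn using hs
  -- the digits
  have hz : ∀ t : A, ∃ x : ℕ → ℤ_[p], ∀ i, x i = (if σ (n^[i] a) = t then 1 else 0) + p • x (i + 1) :=
    fun t => PC.zp.sum _
  choose z hz using hz
  have key : ∀ i, n^[i] a - ∑ t ∈ s, z t i • t = 0 := by
    refine h.sep (fun i => n^[i] a - ∑ t ∈ s, z t i • t) (fun i => ?_)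
    simp only [Function.iterate_succ_apply']
    have h1 : ∑ t ∈ s, z t i • t = σ (n^[i] a) + p • ∑ t ∈ s, z t (i + 1) • t := by
      rw [Finset.smul_sum]
      have : ∀ t ∈ s, z t i • t = (if σ (n^[i] a) = t then t else 0) + p • (z t (i + 1) • t) := by
        intro t _
        rw [hz t i, add_smul, smul_assoc]
        congr 1
        split_ifs <;> simp
      rw [Finset.sum_congr rfl this, Finset.sum_add_distrib, Finset.sum_ite_eq, if_pos (hσ _)]
    rw [h1, smul_sub]
    have h2 := hn (n^[i] a)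
    calc n^[i] a - (σ (n^[i] a) + p • ∑ t ∈ s, z t (i + 1) • t)
        = (σ (n^[i] a) + p • n (n^[i] a)) - (σ (n^[i] a) + p • ∑ t ∈ s, z t (i + 1) • t) := by
          rw [← h2]
      _ = _ := by abel
  have h0 := key 0
  simp only [Function.iterate_zero, id_eq, sub_eq_zero] at h0
  rw [h0]
  exact Submodule.sum_mem _ (fun t ht => Submodule.smul_mem _ _ (Submodule.subset_span ht))

theorem finite_of_finite_quot (h : PC p A)
    (hf : Finite (A ⧸ (zsmulAddGroupHom (α := A) (p : ℤ)).range)) :
    letI := mod h; Module.Finite ℤ_[p] A := by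
  classical
  have := Fintype.ofFinite (A ⧸ (zsmulAddGroupHom (α := A) (p : ℤ)).range)
  refine finite_of_PC h (Finset.univ.image
    (fun q : A ⧸ (zsmulAddGroupHom (α := A) (p : ℤ)).range => Quotient.out q)) (fun a => ?_)
  refine ⟨Quotient.out (QuotientAddGroup.mk a : A ⧸ (zsmulAddGroupHom (α := A) (p : ℤ)).range),
    Finset.mem_image_of_mem _ (Finset.mem_univ _), ?_⟩
  have h1 := QuotientAddGroup.eq.1 (Quotient.out_eq
    (QuotientAddGroup.mk a : A ⧸ (zsmulAddGroupHom (α := A) (p : ℤ)).range))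
  obtain ⟨a', ha'⟩ := h1
  refine ⟨a', ?_⟩
  rw [zsmulAddGroupHom_apply, natCast_zsmul] at ha'
  rw [ha']
  abel

/-- finitely generated `ℤ_[p]`-module (for some module structure) -/
def FG (p : ℕ) [Fact p.Prime] (A : Type u) [AddCommGroup A] : Prop :=
  ∃ _ : Module ℤ_[p] A, Module.Finite ℤ_[p] A

def ExtC (p : ℕ) (A : Type u) [AddCommGroup A] : Prop :=
  ∀ a : ℕ → A, ∃! b : ℕ → A, ∀ n, b n = a n + (p : ℤ) • b (n + 1)

def Cok (p : ℕ) (A : Type u) [AddCommGroup A] : Prop :=
  Finite (A ⧸ (zsmulAddGroupHom (p : ℤ) : A →+ A).range)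

def Ker (p : ℕ) (A : Type u) [AddCommGroup A] : Prop := Finite {a : A // (p : ℤ) • a = 0}

omit hp in
theorem PC.of_extC (h : ExtC p A) : PC p A where
  sep a ha i := by
    obtain ⟨b, -, hb⟩ := h 0
    have h1 := hb a (fun n => by rw [natCast_zsmul, ← ha n]; simp)
    have h2 := hb 0 (fun n => by simp)
    rw [h1, ← h2]; rfl
  sum b := by
    obtain ⟨x, hx, -⟩ := h b
    exact ⟨x, fun n => by rw [← natCast_zsmul]; exact hx n⟩

theorem fg_of_extC (h : ExtC p A) (hc : Cok p A) : FG p A :=
  ⟨mod (PC.of_extC h), finite_of_finite_quot (PC.of_extC h) hc⟩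

/-- in a finitely generated `ℤ_[p]`-module finitely many elements represent all classes mod `p` -/
theorem reps (A : Type u) [AddCommGroup A] [Module ℤ_[p] A] [Module.Finite ℤ_[p] A] :
    ∃ (k : ℕ) (g : (Fin k → Fin p) → A), ∀ a : A, ∃ c, ∃ a' : A, a = g c + (p : ℤ) • a' := by
  obtain ⟨k, f, hf⟩ := Module.Finite.exists_fin' ℤ_[p] A
  refine ⟨k, fun c => f (fun i => ((c i : ℕ) : ℤ_[p])), fun a => ?_⟩
  obtain ⟨z, rfl⟩ := hf a
  have h1 : ∀ i, ∃ (c : Fin p) (w : ℤ_[p]), z i = ((c : ℕ) : ℤ_[p]) + p * w := by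
    intro i
    have h : z i - ((z i).appr 1 : ℤ_[p]) ∈ Ideal.span {(p : ℤ_[p]) ^ 1} := PadicInt.appr_spec 1 _
    rw [pow_one, Ideal.mem_span_singleton] at h
    obtain ⟨w', hw'⟩ := h
    refine ⟨⟨(z i).appr 1, by simpa using (z i).appr_lt 1⟩, w', ?_⟩
    rw [← hw']; ring
  choose c w hw using h1
  refine ⟨c, f w, ?_⟩
  rw [natCast_zsmul, ← map_nsmul, ← map_add]
  congr 1
  ext i
  simp [hw i]

theorem cok_of_fg (h : FG p A) : Cok p A := by
  obtain ⟨m, hm⟩ := h
  obtain ⟨k, g, hg⟩ := reps (p := p) A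
  refine Finite.of_surjective (fun c => (QuotientAddGroup.mk (g c) :
    A ⧸ (zsmulAddGroupHom (p : ℤ) : A →+ A).range)) (fun q => ?_)
  obtain ⟨a, rfl⟩ := QuotientAddGroup.mk_surjective q
  obtain ⟨c, a', ha⟩ := hg a
  refine ⟨c, QuotientAddGroup.eq.2 ⟨a', ?_⟩⟩
  rw [zsmulAddGroupHom_apply, ha]
  abel

theorem ker_of_fg (h : FG p A) : Ker p A := by
  obtain ⟨m, hm⟩ := h
  have : IsNoetherian ℤ_[p] A := isNoetherian_of_isNoetherianRing_of_finite ℤ_[p] A
  let T : Submodule ℤ_[p] A := Submodule.torsionBy ℤ_[p] A (p : ℤ_[p])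
  obtain ⟨k, g, hg⟩ := reps (p := p) T
  have h1 : ∀ a : A, (p : ℤ) • a = 0 ↔ a ∈ T := by
    intro a
    rw [Submodule.mem_torsionBy_iff, natCast_zsmul, Nat.cast_smul_eq_nsmul]
  have h2 : Function.Surjective g := by
    intro a
    obtain ⟨c, a', ha⟩ := hg a
    refine ⟨c, ?_⟩
    have : (p : ℤ) • a' = 0 := Subtype.ext (by simpa using (h1 a').2 a'.2)
    rw [ha, this, add_zero]
  have : Finite T := Finite.of_surjective g h2
  exact Finite.of_injective (fun a : {a : A // (p : ℤ) • a = 0} => (⟨a.1, (h1 a.1).1 a.2⟩ : T))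
    (fun a b hab => Subtype.ext (Subtype.mk.inj hab))

end Vale.Agent.P261.H180
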